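import Vale.Agent.P088.R2.H808.INF.O1b
import Vale.Agent.P088.R2.H684.INF.Lim
import Vale.Agent.P088.R2.H493.INF.RowS

/-!
# P088, stage 3, leaf iH: the row `RowO1` (the end)
-/

open MeasureTheory Set Filter
open scoped ContDiff Topology Matrix

noncomputable section

namespace Vale.Agent.P088.R2.H808.INF

open Vale.Agent.P088.R2.H961.GW Vale.Agent.P088.R2.H960.W Vale.Agent.P088.R2.H644
open Vale.Agent.P088.R2.H551.E Vale.Agent.P088.LR Vale.Agent.P088.HY Vale.Agent.P088.R2.H475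
open Vale.Agent.P088.R2.H168.INF Vale.Agent.P088.R2.H31.EP Vale.Agent.P088.R2.H380.INF
open Vale.Agent.P088.R2.H269.INF
open Vale.Agent.P088.R2.H404.INF (InfC evInf lvG l₀_eq l₀_nonneg l₀_le)
open Vale.Agent.P088.R2.H464.Cu (mid)

variable {n : ℕ} {q : Cst} {d : Pk n} {z : VV n}

/-! ## The numbers -/

theorem nums (O : Oc n q) {m : ℝ}
    (hm : Real.exp (10 * q.C₃ / q.σ * (q.R / 20 - 1)) ≤ m) :
    4 * (bF n q * n) ≤ q.σ / q.R * m ∧ 16 * n * bF n q ≤ m ∧ 3 * (kK q + 3) ≤ m ∧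
      112 * 1 + 2 * bF n q ≤ 1 / 10 ^ 6 * (q.σ / q.R * m) ^ 2 := by
  have I := O.ic
  have hR := I.R0
  have hσ := I.σ0
  have hn : (0 : ℝ) ≤ n := n.cast_nonneg
  have hc := cB0 n
  have hk := kK1 O
  have big := O.big
  have eb : bF n q = 4 * (cB n * Real.exp (8 * (q.R / q.σ))) := by unfold bF; ring
  rw [eb]
  have X0 : 0 < q.R / q.σ := div_pos hR hσ
  have e1 : q.σ / q.R * (q.R / q.σ) = 1 := by field_simp
  have s0 : 0 < q.σ / q.R := div_pos hσ hR
  generalize q.R / q.σ = X at *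
  generalize q.σ / q.R = s at *
  have E1 : 1 ≤ Real.exp (8 * X) := Real.one_le_exp (by linarith)
  have e9 : Real.exp (9 * X) = Real.exp (8 * X) * Real.exp X := by
    rw [← Real.exp_add]; congr 1; ring
  have eX : X ≤ Real.exp X := by linarith [Real.add_one_le_exp X]
  have eX1 : 1 ≤ Real.exp X := Real.one_le_exp X0.le
  rw [e9] at big
  generalize Real.exp (8 * X) = E at *
  generalize Real.exp X = F at *
  have t1 : n * cB n ≤ (n + 1) * (cB n + 1) := by nlinarith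
  have t2 : cB n ≤ (n + 1) * (cB n + 1) := by nlinarith
  have t0 : 0 ≤ ((n : ℝ) + 1) * (cB n + 1) := by positivity
  have ek : kA n q = 10 ^ 6 * (200 + 64 * ((n + 1) * (cB n + 1)) + 3 * (kK q + 3)) := by
    unfold kA; ring
  generalize kA n q = A at *
  generalize ((n : ℝ) + 1) * (cB n + 1) = T at *
  generalize cB n = c at *
  generalize kK q = K at *
  have A1 : 1 ≤ A := by rw [ek]; linarith
  have AE1 : 1 ≤ A * E := one_le_mul_of_one_le_of_one_le A1 E1
  have m1 : A * E * F ≤ m := by rw [mul_assoc]; exact big.trans hm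
  have m2 : A * E ≤ m := le_trans (le_mul_of_one_le_right (by linarith) eX1) m1
  have m3 : A * E ≤ s * m := by
    calc A * E = s * (A * E * X) := by rw [show s * (A * E * X) = A * E * (s * X) by ring, e1]; ring
      _ ≤ s * m := mul_le_mul_of_nonneg_left
        ((mul_le_mul_of_nonneg_left eX (by linarith)).trans m1) s0.le
  have a0 : 0 ≤ 3 * (K + 3) * E := by positivity
  have a1 : 10 ^ 6 * ((200 + 64 * T) * E) ≤ A * E := by
    rw [ek]
    have : 10 ^ 6 * (200 + 64 * T + 3 * (K + 3)) * E =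
      10 ^ 6 * ((200 + 64 * T) * E) + 10 ^ 6 * (3 * (K + 3) * E) := by ring
    rw [this]
    linarith
  have a2 : A ≤ A * E := le_mul_of_one_le_right (by linarith) E1
  have T1 : n * c * E ≤ T * E := mul_le_mul_of_nonneg_right t1 (by linarith)
  have T2 : c * E ≤ T * E := mul_le_mul_of_nonneg_right t2 (by linarith)
  have T0 : 0 ≤ T * E := by positivity
  refine ⟨?_, ?_, ?_, ?_⟩
  · have : 4 * (4 * (c * E) * n) = 16 * (n * c * E) := by ring
    rw [this]
    linarith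
  · have : 16 * n * (4 * (c * E)) = 64 * (n * c * E) := by ring
    rw [this]
    linarith
  · have : 3 * (K + 3) ≤ A := by rw [ek]; linarith
    linarith
  · have y1 : 1 ≤ s * m := AE1.trans m3
    have y2 : s * m ≤ (s * m) ^ 2 := by nlinarith
    linarith

/-! ## The derivatives of the weights -/

theorem it3 (f : ℝ → ℝ) : iteratedDeriv (1 + 2) f = deriv (deriv (deriv f)) := by
  rw [show 1 + 2 = 1 + 1 + 1 by rfl, iteratedDeriv_succ, iteratedDeriv_succ, iteratedDeriv_one]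

theorem it4 (f : ℝ → ℝ) : iteratedDeriv (2 + 2) f = deriv (deriv (deriv (deriv f))) := by
  rw [show 2 + 2 = 1 + 1 + 1 + 1 by rfl, iteratedDeriv_succ, iteratedDeriv_succ,
    iteratedDeriv_succ, iteratedDeriv_one]

theorem the34 (O : Oc n q) (h : PkOk q d) (t : ℝ) :
    |deriv (deriv (deriv d.Θ)) t| ≤ kK q * deriv (deriv d.Θ) t + 1 ∧
    |deriv (deriv (deriv (deriv d.Θ))) t| ≤ kK q ^ 2 * deriv (deriv d.Θ) t + 1 := by
  have R1 := O.ic.R1
  have hR := O.ic.R0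
  have L1 := O.L4
  have c0 := h.Θcv hR t
  have h1 := h.Θll R1 L1 1 t
  have h2 := h.Θll R1 L1 2 t
  rw [it3] at h1
  rw [it4] at h2
  have a1 := thC_nonneg 1
  have a2 := thC_nonneg 2
  have a3 := thC_nonneg 3
  have a4 := thC_nonneg 4
  have b0 : 0 ≤ q.tnL := by unfold Cst.tnL Cst.A₄; positivity
  have b1 : 0 ≤ q.tny := by unfold Cst.tny; positivity
  have ex := O.ex
  have k1 : tK * q.L₄ ≤ kK q := by
    have := abs_nonneg (q.phL.1 1)
    have := abs_nonneg (q.phL.1 2)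
    unfold kK
    linarith
  have t1 := tK1
  have s1 : thC 1 + thC (1 + 2) ≤ tK := by unfold tK; norm_num; linarith
  have s2 : thC 2 + thC (2 + 2) ≤ tK := by unfold tK; norm_num; linarith
  have p3 : q.L₄ ^ (1 + 2) ≤ q.L₄ ^ 4 := pow_le_pow_right₀ L1 (by norm_num)
  constructor
  · refine h1.trans ?_
    calc (thC 1 + thC (1 + 2)) * (q.L₄ ^ 1 * deriv (deriv d.Θ) t + q.L₄ ^ (1 + 2) * q.tnL + q.tny)
        ≤ tK * (q.L₄ * deriv (deriv d.Θ) t + q.L₄ ^ 4 * q.tnL + q.tny) := by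
          rw [pow_one]
          refine mul_le_mul s1 ?_ (by positivity) (by linarith)
          have := mul_le_mul_of_nonneg_right p3 b0
          linarith
      _ = tK * q.L₄ * deriv (deriv d.Θ) t + tK * (q.L₄ ^ 4 * q.tnL + q.tny) := by ring
      _ ≤ _ := add_le_add (mul_le_mul_of_nonneg_right k1 c0) ex
  · refine h2.trans ?_
    have k2 : tK * q.L₄ ^ 2 ≤ kK q ^ 2 := by
      have e : tK * q.L₄ ^ 2 ≤ (tK * q.L₄) ^ 2 := by
        rw [mul_pow]
        refine mul_le_mul_of_nonneg_right ?_ (by positivity)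
        nlinarith
      exact e.trans (pow_le_pow_left₀ (by positivity) k1 2)
    calc (thC 2 + thC (2 + 2)) * (q.L₄ ^ 2 * deriv (deriv d.Θ) t + q.L₄ ^ (2 + 2) * q.tnL + q.tny)
        ≤ tK * (q.L₄ ^ 2 * deriv (deriv d.Θ) t + q.L₄ ^ 4 * q.tnL + q.tny) := by
          refine mul_le_mul s2 ?_ (by positivity) (by linarith)
          norm_num
      _ = tK * q.L₄ ^ 2 * deriv (deriv d.Θ) t + tK * (q.L₄ ^ 4 * q.tnL + q.tny) := by ring
      _ ≤ _ := add_le_add (mul_le_mul_of_nonneg_right k2 c0) ex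

theorem phi34 (O : Oc n q) (h : PkOk q d) (t : ℝ) :
    |deriv (deriv (deriv d.Φ)) t| ≤ kK q * deriv (deriv d.Φ) t + 1 ∧
    |deriv (deriv (deriv (deriv d.Φ))) t| ≤ kK q ^ 2 * deriv (deriv d.Φ) t + 1 := by
  have c0 := (h.top.k0 t).le
  have h1 := h.top.kL 1 t
  have h2 := h.top.kL 2 t
  rw [it3] at h1
  rw [it4] at h2
  have L1 := O.L4
  have t1 := tK1
  have hk := kK1 O
  have t2 : 0 ≤ tK * q.L₄ := by positivity
  have k1 : |q.phL.1 1| ≤ kK q := by
    have := abs_nonneg (q.phL.1 2)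
    unfold kK
    linarith
  have k2 : |q.phL.1 2| ≤ kK q ^ 2 := by
    have h3 : |q.phL.1 2| ≤ kK q := by
      have := abs_nonneg (q.phL.1 1)
      unfold kK
      linarith
    nlinarith
  constructor
  · refine h1.trans ?_
    have := mul_le_mul_of_nonneg_right ((le_abs_self _).trans k1) c0
    linarith
  · refine h2.trans ?_
    have := mul_le_mul_of_nonneg_right ((le_abs_self _).trans k2) c0
    linarith

/-- The composition. -/
theorem cp_of {u : VV n → ℝ} {g : ℝ → ℝ} (hu : ContDiff ℝ ∞ u) (hg : ContDiff ℝ ∞ g) :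
    Ch.Cp univ u g (deriv g) (deriv (deriv g)) := by
  have h1 : ContDiff ℝ ∞ (deriv g) := (contDiff_infty_iff_deriv.1 hg).2
  exact Ch.Cp.of hu.contDiffOn hg h1 (fun t => (hg.differentiable (by simp) t).hasDerivAt)
    (fun t => (h1.differentiable (by simp) t).hasDerivAt)

/-! ## The two slots -/

theorem lev_q (I : InfC q) (h : PkOk q d) {x : V n} (h1 : d.l x ≤ d.l₀ q + 31 / 10 * q.R) :
    HY.sq (wR n q.σ q.R x) ≤ 2 := by
  have hL := lvG I h
  have wx : √(HY.sq (wv n q.σ (q.R⁻¹ • x))) ≤ 1 + q.σ * (31 / 10) :=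
    hL.g.t_le I.σ0 (by norm_num) ((hL.l12 _).2 h1)
  have h2 := I.σ1
  have h3 : √(HY.sq (wv n q.σ (q.R⁻¹ • x))) ≤ 101 / 100 := by linarith
  have h4 := (Real.sqrt_le_left (by norm_num)).1 h3
  unfold wR
  linarith

/-- The data of the slot of `y`. -/
theorem od_y (hn : 1 ≤ n) (O : Oc n q) (h : PkOk q d)
    (hu : 2 * d.l₀ q + 91 / 20 * q.R ≤ d.l z.1 + d.l z.2)
    (h1 : d.l z.1 ≤ d.l₀ q + 31 / 10 * q.R) (h2 : d.l z.2 ≤ d.l₀ q + 31 / 10 * q.R) :
    Od d.sy Prod.snd d.s₂ 1 (fun z => d.l z.1 + d.l z.2) (fS q d) q.ε q.R q.σ d.kap d.Gs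
      d.Φ (deriv d.Φ) (deriv (deriv d.Φ)) (deriv (deriv (deriv d.Φ)))
      (deriv (deriv (deriv (deriv d.Φ)))) d.Θ (deriv d.Θ) (deriv (deriv d.Θ))
      (deriv (deriv (deriv d.Θ))) (deriv (deriv (deriv (deriv d.Θ)))) (bF n q) (kK q) 1 z := by
  have I := O.ic
  have hR := I.R0
  have hl : d.l = levG n q.σ q.R d.kap d.Gs := h.lev.lit
  have sl : ContDiff ℝ ∞ (levG n q.σ q.R d.kap d.Gs) := levG_smooth I.σ0 I.σ1
  have m1 : Mt q.ε q.R d.s₁ := mt₁ le_rfl hR h.rg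
  have m2 : Mt q.ε q.R d.s₂ := mt₂ le_rfl hR h.rg
  have S := sF O h h1 (by linarith) h2
  have sΦ : ContDiff ℝ ∞ d.Φ := h.ok.Φs
  have sΦ1 : ContDiff ℝ ∞ (deriv d.Φ) := (contDiff_infty_iff_deriv.1 sΦ).2
  have sΦ2 : ContDiff ℝ ∞ (deriv (deriv d.Φ)) := (contDiff_infty_iff_deriv.1 sΦ1).2
  have sΘ : ContDiff ℝ ∞ d.Θ := h.Θs
  have sΘ1 : ContDiff ℝ ∞ (deriv d.Θ) := (contDiff_infty_iff_deriv.1 sΘ).2
  have sΘ2 : ContDiff ℝ ∞ (deriv (deriv d.Θ)) := (contDiff_infty_iff_deriv.1 sΘ1).2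
  have sM : ContDiff ℝ ∞ fun z : VV n => d.l z.1 + d.l z.2 :=
    (h.lev.sm.comp contDiff_fst).add (h.lev.sm.comp contDiff_snd)
  have sL : ContDiff ℝ ∞ fun z : VV n => levG n q.σ q.R d.kap d.Gs z.2 := sl.comp contDiff_snd
  have N := N_low O h hu
  have T1 := h.Θd0 hR (levG n q.σ q.R d.kap d.Gs z.2)
  obtain ⟨k1, k2, k3, k4⟩ := nums O (m := deriv d.Φ (d.l z.1 + d.l z.2) +
    deriv d.Θ (levG n q.σ q.R d.kap d.Gs z.2)) (by linarith)
  have t34 := the34 O h (levG n q.σ q.R d.kap d.Gs z.2)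
  have p34 := phi34 O h (d.l z.1 + d.l z.2)
  exact
    { p := pj_y d.s₂
      m := m2
      ok := Vale.Agent.P088.R2.H168.INF.ok_y m1 m2
      hn := hn
      h0 := I.σ0
      h1 := I.σ1
      hR := hR
      hx := O.nx
      hz := by
        show lam0 q.R d.kap d.Gs + 21 / 20 * q.R < levG n q.σ q.R d.kap d.Gs z.2
        rw [← hl]
        have : lam0 q.R d.kap d.Gs = d.l₀ q := rfl
        rw [this]
        linarith
      qz := lev_q I h h2
      M0 := cp_of sM sΦ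
      M1 := cp_of sM sΦ1
      M2 := cp_of sM sΦ2
      L0 := cp_of sL sΘ
      L1 := cp_of sL sΘ1
      L2 := cp_of sL sΘ2
      MD := by
        intro w i
        have a1 : Sm univ fun z : VV n => levG n q.σ q.R d.kap d.Gs z.1 :=
          (sl.comp contDiff_fst).contDiffOn
        rw [hl, D_add d.sy isOpen_univ a1 sL.contDiffOn i (mem_univ w)]
        have e0 : d.sy.D i (fun z : VV n => levG n q.σ q.R d.kap d.Gs z.1) w = 0 :=
          τL1 I.σ0 I.σ1 w i
        rw [e0, zero_add]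
      sf := (fS_sm O h).contDiffOn
      d1 := fun i => (S.1.d1' i).trans (S.2 0 (by norm_num))
      d2 := fun i j => (S.1.d2' i j).trans (S.2 1 (by norm_num))
      La := S.1.L1'.trans (S.2 1 (by norm_num))
      LL := S.1.m4.trans (S.2 3 (by norm_num))
      K1 := kK1 O
      e0 := zero_le_one
      a1 := (Real.exp_pos _).le.trans N
      a2 := (h.top.k0 _).le
      a3 := p34.1
      a4 := p34.2
      t1 := T1
      t2 := h.Θcv hR _
      t3 := t34.1
      t4 := t34.2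
      k1 := k1
      k2 := k2
      k3 := k3
      k4 := k4 }

/-- The data of the slot of `x`. -/
theorem od_x (hn : 1 ≤ n) (O : Oc n q) (h : PkOk q d)
    (hu : 2 * d.l₀ q + 91 / 20 * q.R ≤ d.l z.1 + d.l z.2)
    (h1 : d.l z.1 ≤ d.l₀ q + 31 / 10 * q.R) (h2 : d.l z.2 ≤ d.l₀ q + 31 / 10 * q.R) :
    Od d.sx Prod.fst d.s₁ 1 (fun z => d.l z.1 + d.l z.2) (fS q d) q.ε q.R q.σ d.kap d.Gs
      d.Φ (deriv d.Φ) (deriv (deriv d.Φ)) (deriv (deriv (deriv d.Φ)))
      (deriv (deriv (deriv (deriv d.Φ)))) d.Θ (deriv d.Θ) (deriv (deriv d.Θ))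
      (deriv (deriv (deriv d.Θ))) (deriv (deriv (deriv (deriv d.Θ)))) (bF n q) (kK q) 1 z := by
  have I := O.ic
  have hR := I.R0
  have hl : d.l = levG n q.σ q.R d.kap d.Gs := h.lev.lit
  have sl : ContDiff ℝ ∞ (levG n q.σ q.R d.kap d.Gs) := levG_smooth I.σ0 I.σ1
  have m1 : Mt q.ε q.R d.s₁ := mt₁ le_rfl hR h.rg
  have m2 : Mt q.ε q.R d.s₂ := mt₂ le_rfl hR h.rg
  have S := sF O h h1 (by linarith) h2
  have sΦ : ContDiff ℝ ∞ d.Φ := h.ok.Φs
  have sΦ1 : ContDiff ℝ ∞ (deriv d.Φ) := (contDiff_infty_iff_deriv.1 sΦ).2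
  have sΦ2 : ContDiff ℝ ∞ (deriv (deriv d.Φ)) := (contDiff_infty_iff_deriv.1 sΦ1).2
  have sΘ : ContDiff ℝ ∞ d.Θ := h.Θs
  have sΘ1 : ContDiff ℝ ∞ (deriv d.Θ) := (contDiff_infty_iff_deriv.1 sΘ).2
  have sΘ2 : ContDiff ℝ ∞ (deriv (deriv d.Θ)) := (contDiff_infty_iff_deriv.1 sΘ1).2
  have sM : ContDiff ℝ ∞ fun z : VV n => d.l z.1 + d.l z.2 :=
    (h.lev.sm.comp contDiff_fst).add (h.lev.sm.comp contDiff_snd)
  have sL : ContDiff ℝ ∞ fun z : VV n => levG n q.σ q.R d.kap d.Gs z.1 := sl.comp contDiff_fst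
  have N := N_low O h hu
  have T1 := h.Θd0 hR (levG n q.σ q.R d.kap d.Gs z.1)
  obtain ⟨k1, k2, k3, k4⟩ := nums O (m := deriv d.Φ (d.l z.1 + d.l z.2) +
    deriv d.Θ (levG n q.σ q.R d.kap d.Gs z.1)) (by linarith)
  have t34 := the34 O h (levG n q.σ q.R d.kap d.Gs z.1)
  have p34 := phi34 O h (d.l z.1 + d.l z.2)
  exact
    { p := pj_x d.s₁
      m := m1
      ok := Vale.Agent.P088.R2.H168.INF.ok_x m1 m2
      hn := hn
      h0 := I.σ0
      h1 := I.σ1
      hR := hR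
      hx := O.nx
      hz := by
        show lam0 q.R d.kap d.Gs + 21 / 20 * q.R < levG n q.σ q.R d.kap d.Gs z.1
        rw [← hl]
        have : lam0 q.R d.kap d.Gs = d.l₀ q := rfl
        rw [this]
        linarith
      qz := lev_q I h h1
      M0 := cp_of sM sΦ
      M1 := cp_of sM sΦ1
      M2 := cp_of sM sΦ2
      L0 := cp_of sL sΘ
      L1 := cp_of sL sΘ1
      L2 := cp_of sL sΘ2
      MD := by
        intro w i
        have a1 : Sm univ fun z : VV n => levG n q.σ q.R d.kap d.Gs z.2 :=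
          (sl.comp contDiff_snd).contDiffOn
        rw [hl, D_add d.sx isOpen_univ sL.contDiffOn a1 i (mem_univ w)]
        have e0 : d.sx.D i (fun z : VV n => levG n q.σ q.R d.kap d.Gs z.2) w = 0 :=
          σL2 I.σ0 I.σ1 w i
        rw [e0, add_zero]
      sf := (fS_sm O h).contDiffOn
      d1 := fun i => (S.1.d1 i).trans (S.2 0 (by norm_num))
      d2 := fun i j => (S.1.d2 i j).trans (S.2 1 (by norm_num))
      La := S.1.L1.trans (S.2 1 (by norm_num))
      LL := S.1.m1.trans (S.2 3 (by norm_num))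
      K1 := kK1 O
      e0 := zero_le_one
      a1 := (Real.exp_pos _).le.trans N
      a2 := (h.top.k0 _).le
      a3 := p34.1
      a4 := p34.2
      t1 := T1
      t2 := h.Θcv hR _
      t3 := t34.1
      t4 := t34.2
      k1 := k1
      k2 := k2
      k3 := k3
      k4 := k4 }

theorem oy_of (hn : 1 ≤ n) (O : Oc n q) (h : PkOk q d)
    (hu : 2 * d.l₀ q + 91 / 20 * q.R ≤ d.l z.1 + d.l z.2)
    (h1 : d.l z.1 ≤ d.l₀ q + 31 / 10 * q.R) (h2 : d.l z.2 ≤ d.l₀ q + 31 / 10 * q.R) :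
    OY q d z := by
  have k := (od_y hn O h hu h1 h2).own
  have hl : levG n q.σ q.R d.kap d.Gs = d.l := h.lev.lit.symm
  rw [hl] at k
  have e : (fun z : VV n => d.Φ (d.l z.1 + d.l z.2) + fS q d z + d.Θ (d.l z.2)) = wY0 q d := by
    funext w
    unfold fS wY0
    ring
  rw [e] at k
  exact k

theorem ox_of (hn : 1 ≤ n) (O : Oc n q) (h : PkOk q d)
    (hu : 2 * d.l₀ q + 91 / 20 * q.R ≤ d.l z.1 + d.l z.2)
    (h1 : d.l z.1 ≤ d.l₀ q + 31 / 10 * q.R) (h2 : d.l z.2 ≤ d.l₀ q + 31 / 10 * q.R) :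
    OX q d z := by
  have k := (od_x hn O h hu h1 h2).own
  have hl : levG n q.σ q.R d.kap d.Gs = d.l := h.lev.lit.symm
  rw [hl] at k
  have e : (fun z : VV n => d.Φ (d.l z.1 + d.l z.2) + fS q d z + d.Θ (d.l z.1)) = wX0 q d := by
    funext w
    unfold fS wX0
    ring
  rw [e] at k
  exact k

/-! ## The thresholds -/

theorem ev_Oc (n : ℕ) : EvC (Oc n) := by
  have a1 : EvC fun q => 20 ≤ q.C₃ := EvC.at_C₃ (fun _ t => 20 ≤ t) fun _ => eventually_ge_atTop _
  have a2 : EvC fun q => 1 ≤ q.C₄ := EvC.at_C₄ (fun _ t => 1 ≤ t) fun _ => eventually_ge_atTop _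
  have a3 : EvC fun q => 1000 ≤ q.R ∧ 2 * n * q.σ ≤ q.R := by
    refine EvC.at_R (fun q t => 1000 ≤ t ∧ 2 * n * q.σ ≤ t) fun q => ?_
    exact (eventually_ge_atTop _).and (eventually_ge_atTop _)
  have a4 : EvC fun q => 0 < q.σ → 1 ≤ q.C₄ → tK * (q.L₄ ^ 4 * q.tnL + q.tny) ≤ 1 := by
    refine EvC.at_R (fun q t => 0 < q.σ → 1 ≤ q.C₄ →
      tK * ((20 * q.C₄ / q.σ) ^ 4 * (Real.exp (q.C₄ * t / q.σ) *
        Real.exp (-(20 * q.C₄ / q.σ * (3 / 10 * t / 2 - 1)))) +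
        t ^ 4 * Real.exp (1 - 4 / 100 * √t)) ≤ 1) fun q => ?_
    by_cases hσ : 0 < q.σ
    · by_cases hC : 1 ≤ q.C₄
      · filter_upwards [H684.INF.lim_a hσ (by linarith : 0 < q.C₄) tK] with t ht _ _
        exact ht
      · exact Eventually.of_forall fun _ _ h => absurd h hC
    · exact Eventually.of_forall fun _ h => absurd h hσ
  have a5 : EvC fun q => 0 < q.σ → 20 ≤ q.C₃ →
      kA n q * Real.exp (9 * (q.R / q.σ)) ≤ Real.exp (10 * q.C₃ / q.σ * (q.R / 20 - 1)) := by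
    refine EvC.at_R (fun q t => 0 < q.σ → 20 ≤ q.C₃ →
      kA n q * Real.exp (9 * (t / q.σ)) ≤ Real.exp (10 * q.C₃ / q.σ * (t / 20 - 1))) fun q => ?_
    by_cases hσ : 0 < q.σ
    · by_cases hC : 20 ≤ q.C₃
      · filter_upwards [H684.INF.lim_b hσ hC (kA n q)] with t ht _ _
        exact ht
      · exact Eventually.of_forall fun _ _ h => absurd h hC
    · exact Eventually.of_forall fun _ h => absurd h hσ
  have a6 := H493.INF.rowSt n
  refine ((((evInf.and H238.C.EvC.thr).and (H238.C.EvC.te n)).and ((a1.and a2).and a3)).and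
    ((a4.and a5).and a6)).mono fun q h => ?_
  obtain ⟨⟨⟨⟨I, th⟩, te⟩, ⟨b1, b2⟩, b3, b3'⟩, ⟨b4, b5⟩, b6⟩ := h
  exact
    { ic := I
      th := th
      te := te
      st := b6
      nε := te.nε
      nx := by
        have hR := I.R0
        rw [mul_div_assoc', div_le_iff₀ hR]
        linarith
      R20 := b3
      L4 := by
        have := I.σ0
        have := I.σ1
        unfold Cst.L₄
        rw [le_div_iff₀ I.σ0]
        linarith
      ex := b4 I.σ0 b2
      big := b5 I.σ0 b1 }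

/-- **The row `RowO1`.** -/
theorem rowO1 (hn : 1 ≤ n) : RowO1 n := by
  refine (ev_Oc n).mono fun q O d h z hu => ?_
  have hR := O.ic.R0
  refine ⟨fun k => ?_, fun k => ?_⟩
  · obtain ⟨k1, k2, k3⟩ := k
    exact oy_of hn O h hu k2 (by linarith)
  · obtain ⟨k1, k2, k3⟩ := k
    exact ox_of hn O h hu (by linarith) k2

end Vale.Agent.P088.R2.H808.INF
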