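import Vale.Agent.P088.R2.H168.INF.H1z
import Vale.Agent.P088.R2.H168.INF.Half
import Vale.Agent.P088.R2.H168.INF.Spec2

/-!
# P088, stage 3, leaf iH: one slot, the slope dominates everything

`W = Φ(M) + f + Θ(L)`, where `L` is the level of the slot and `M` has the same derivatives in the
slot; flat metric, quadratic level, `Φ'` much larger than the derivatives of `f`.
-/

open MeasureTheory Set Filter
open scoped ContDiff Topology Matrix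

noncomputable section

namespace Vale.Agent.P088.R2.H808.INF

open Vale.Agent.P088.R2.H961.GW Vale.Agent.P088.R2.H960.W Vale.Agent.P088.R2.H644
open Vale.Agent.P088.R2.H551.E Vale.Agent.P088.LR Vale.Agent.P088.HY Vale.Agent.P088.R2.H475
open Vale.Agent.P088.R2.H168.INF

variable {n : ℕ} {E : Type*} [NormedAddCommGroup E] [NormedSpace ℝ E]

section ofD

variable {σ : Sl E (Fin n)} {f h g : E → ℝ} {z : E}

/-- Everything depends only on the derivatives of the slot. -/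
theorem HH_oD (e : ∀ z i, σ.D i f z = σ.D i h z) (A : Fin n → ℝ) (z : E) :
    HH σ f z A = HH σ h z A := by
  have e1 : ∀ i, σ.D i f = σ.D i h := fun i => funext fun z => e z i
  unfold HH Sl.Hc
  simp only [e1]

theorem L_oD (e : ∀ z i, σ.D i f z = σ.D i h z) : σ.Λ f = σ.Λ h := by
  have e1 : ∀ i, σ.D i f = σ.D i h := fun i => funext fun z => e z i
  funext z
  unfold Sl.Λ
  simp only [e1]

theorem G_oD (e : ∀ z i, σ.D i f z = σ.D i h z) (g : E → ℝ) : σ.Γ f g = σ.Γ h g := by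
  have e1 : ∀ i, σ.D i f = σ.D i h := fun i => funext fun z => e z i
  funext z
  unfold Sl.Γ
  simp only [e1]

theorem G_oD' (e : ∀ z i, σ.D i f z = σ.D i h z) (g : E → ℝ) : σ.Γ g f = σ.Γ g h := by
  have e1 : ∀ i, σ.D i f = σ.D i h := fun i => funext fun z => e z i
  funext z
  unfold Sl.Γ
  simp only [e1]

theorem gA_oD (e : ∀ z i, σ.D i f z = σ.D i h z) (z : E) (A : Fin n → ℝ) :
    gA σ f z A = gA σ h z A := by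
  have e1 : ∀ i, σ.D i f = σ.D i h := fun i => funext fun z => e z i
  unfold gA
  simp only [e1]

end ofD

/-- The data of one slot at a point. -/
structure Od (σ : Sl E (Fin n)) (π : E → V n) (s : MF n) (θ M f : E → ℝ) (ε R sg kap Gs : ℝ)
    (Φ Φ₁ Φ₂ Φ₃ Φ₄ Θ Θ₁ Θ₂ Θ₃ Θ₄ : ℝ → ℝ) (b K e' : ℝ) (z : E) : Prop where
  p : Pj σ π s
  m : Mt ε R s
  ok : σ.Ok univ θ
  hn : 1 ≤ n
  h0 : 0 < sg
  h1 : sg ≤ 1 / 5000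
  hR : 0 < R
  hx : n * (sg / R) ≤ 1 / 2
  hz : z ∈ Fl π sg R kap Gs
  qz : HY.sq (wR n sg R (π z)) ≤ 2
  M0 : Ch.Cp univ M Φ Φ₁ Φ₂
  M1 : Ch.Cp univ M Φ₁ Φ₂ Φ₃
  M2 : Ch.Cp univ M Φ₂ Φ₃ Φ₄
  L0 : Ch.Cp univ (fun z => levG n sg R kap Gs (π z)) Θ Θ₁ Θ₂
  L1 : Ch.Cp univ (fun z => levG n sg R kap Gs (π z)) Θ₁ Θ₂ Θ₃
  L2 : Ch.Cp univ (fun z => levG n sg R kap Gs (π z)) Θ₂ Θ₃ Θ₄
  MD : ∀ w i, σ.D i M w = σ.D i (fun z => levG n sg R kap Gs (π z)) w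
  sf : Sm univ f
  d1 : ∀ i, |σ.D i f z| ≤ b
  d2 : ∀ i j, |σ.D i (σ.D j f) z| ≤ b
  La : |σ.Λ f z| ≤ b
  LL : |σ.Λ (σ.Λ f) z| ≤ b
  K1 : 1 ≤ K
  e0 : 0 ≤ e'
  a1 : 0 ≤ Φ₁ (M z)
  a2 : 0 ≤ Φ₂ (M z)
  a3 : |Φ₃ (M z)| ≤ K * Φ₂ (M z) + e'
  a4 : |Φ₄ (M z)| ≤ K ^ 2 * Φ₂ (M z) + e'
  t1 : 0 ≤ Θ₁ (levG n sg R kap Gs (π z))
  t2 : 0 ≤ Θ₂ (levG n sg R kap Gs (π z))
  t3 : |Θ₃ (levG n sg R kap Gs (π z))| ≤ K * Θ₂ (levG n sg R kap Gs (π z)) + e'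
  t4 : |Θ₄ (levG n sg R kap Gs (π z))| ≤ K ^ 2 * Θ₂ (levG n sg R kap Gs (π z)) + e'
  k1 : 4 * (b * n) ≤ sg / R * (Φ₁ (M z) + Θ₁ (levG n sg R kap Gs (π z)))
  k2 : 16 * n * b ≤ Φ₁ (M z) + Θ₁ (levG n sg R kap Gs (π z))
  k3 : 3 * (K + 3) ≤ Φ₁ (M z) + Θ₁ (levG n sg R kap Gs (π z))
  k4 : 112 * e' + 2 * b ≤
    1 / 10 ^ 6 * (sg / R * (Φ₁ (M z) + Θ₁ (levG n sg R kap Gs (π z)))) ^ 2

variable {σ : Sl E (Fin n)} {π : E → V n} {s : MF n} {θ M f : E → ℝ} {ε R sg kap Gs : ℝ}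
  {Φ Φ₁ Φ₂ Φ₃ Φ₄ Θ Θ₁ Θ₂ Θ₃ Θ₄ : ℝ → ℝ} {b K e' : ℝ} {z : E}

/-- The level of the slot. -/
abbrev lv (n : ℕ) (π : E → V n) (sg R kap Gs : ℝ) : E → ℝ := fun z => levG n sg R kap Gs (π z)

/-- The weight. -/
abbrev ww (π : E → V n) (M f : E → ℝ) (sg R kap Gs : ℝ) (Φ Θ : ℝ → ℝ) : E → ℝ :=
  fun z => Φ (M z) + f z + Θ (levG n sg R kap Gs (π z))

theorem Od.q1 (P : Od σ π s θ M f ε R sg kap Gs Φ Φ₁ Φ₂ Φ₃ Φ₄ Θ Θ₁ Θ₂ Θ₃ Θ₄ b K e' z) :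
    1 ≤ σ.Γ (lv n π sg R kap Gs) (lv n π sg R kap Gs) z := by
  rw [Fl_GL P.p P.m P.hn P.h0 P.h1 P.hR P.hz]
  exact Fl_q P.p P.m P.hn P.h0 P.h1 P.hR P.hz

theorem Od.q2 (P : Od σ π s θ M f ε R sg kap Gs Φ Φ₁ Φ₂ Φ₃ Φ₄ Θ Θ₁ Θ₂ Θ₃ Θ₄ b K e' z) :
    σ.Γ (lv n π sg R kap Gs) (lv n π sg R kap Gs) z ≤ 2 := by
  rw [Fl_GL P.p P.m P.hn P.h0 P.h1 P.hR P.hz]
  exact P.qz

theorem Od.s0 (P : Od σ π s θ M f ε R sg kap Gs Φ Φ₁ Φ₂ Φ₃ Φ₄ Θ Θ₁ Θ₂ Θ₃ Θ₄ b K e' z) :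
    0 < sg / R := div_pos P.h0 P.hR

theorem Od.s1 (P : Od σ π s θ M f ε R sg kap Gs Φ Φ₁ Φ₂ Φ₃ Φ₄ Θ Θ₁ Θ₂ Θ₃ Θ₄ b K e' z) :
    sg / R ≤ 1 / 2 := by
  have n1 : (1 : ℝ) ≤ n := by exact_mod_cast P.hn
  have := P.s0
  have := P.hx
  nlinarith

theorem Od.b0 (P : Od σ π s θ M f ε R sg kap Gs Φ Φ₁ Φ₂ Φ₃ Φ₄ Θ Θ₁ Θ₂ Θ₃ Θ₄ b K e' z) :
    0 ≤ b := (abs_nonneg _).trans P.La

theorem Od.sW (P : Od σ π s θ M f ε R sg kap Gs Φ Φ₁ Φ₂ Φ₃ Φ₄ Θ Θ₁ Θ₂ Θ₃ Θ₄ b K e' z) :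
    Sm univ fun z => Φ (M z) + f z := P.M0.s0.add P.sf

/-- The fourth order terms. -/
theorem Od.b12 (P : Od σ π s θ M f ε R sg kap Gs Φ Φ₁ Φ₂ Φ₃ Φ₄ Θ Θ₁ Θ₂ Θ₃ Θ₄ b K e' z) :
    |σ.Λ (σ.Λ fun z => Φ (M z)) z| ≤ (Φ₂ (M z) * (K + 3) ^ 2 + 7 * e') *
      σ.Γ (lv n π sg R kap Gs) (lv n π sg R kap Gs) z ^ 2 ∧
    |σ.Λ (σ.Λ fun z => Θ (lv n π sg R kap Gs z)) z| ≤
      (Θ₂ (lv n π sg R kap Gs z) * (K + 3) ^ 2 + 7 * e') *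
      σ.Γ (lv n π sg R kap Gs) (lv n π sg R kap Gs) z ^ 2 := by
  have q1 := P.q1
  have s0 := P.s0
  have s1 := P.s1
  obtain ⟨p, m, ok, hn, h0, h1, hR, hx, hz, qz, M0, M1, M2, L0, L1, L2, MD, sf, d1, d2, La, LL, K1,
    e0, a1, a2, a3, a4, t1, t2, t3, t4, k1, k2, k3, k4⟩ := P
  have hzu : z ∈ (univ : Set E) := mem_univ z
  have n1 : (1 : ℝ) ≤ n := by exact_mod_cast hn
  set L : E → ℝ := lv n π sg R kap Gs with hL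
  have f1 : σ.Λ L z = n * (sg / R) := Fl_LL p m hn h0 h1 hR hz
  have p1 : |σ.Λ L z| ≤ 1 := by
    rw [f1, abs_of_nonneg (by positivity)]; linarith
  have p2 : |σ.Λ (σ.Γ L L) z| ≤ 1 := by
    rw [Fl_LG p m hn h0 h1 hR hz, abs_of_nonneg (by positivity)]
    nlinarith
  have p3 : σ.Γ L (σ.Λ L) z = 0 := Fl_GLL p m hn h0 h1 hR hz _
  have p4 : |σ.Γ L (σ.Γ L L) z| ≤ σ.Γ L L z := by
    rw [Fl_GG p m hn h0 h1 hR hz, ← Fl_GL p m hn h0 h1 hR hz, abs_mul,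
      abs_of_nonneg (by linarith : 0 ≤ σ.Γ L L z), abs_of_pos (by positivity)]
    exact mul_le_of_le_one_left (by linarith) (by linarith)
  have p5 : σ.Λ (σ.Λ L) z = 0 := Fl_LLL p m hn h0 h1 hR hz
  have lM : σ.Λ M = σ.Λ L := L_oD MD
  have gM : σ.Γ M M = σ.Γ L L := by rw [G_oD MD, G_oD' MD]
  have b1 := LL_bd ok M0 M1 M2 hzu K1 e0 (by rw [gM]; linarith) (by rw [lM]; exact p1)
    (by rw [gM]; exact p2) (by rw [lM, G_oD MD]; exact p3) (by rw [gM, G_oD MD]; exact p4)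
    (by rw [lM]; exact p5) a2 a3 a4
  rw [gM] at b1
  exact ⟨b1, LL_bd ok L0 L1 L2 hzu K1 e0 (by linarith) p1 p2 p3 p4 p5 t2 t3 t4⟩

/-- The Hessian. -/
theorem Od.hH (P : Od σ π s θ M f ε R sg kap Gs Φ Φ₁ Φ₂ Φ₃ Φ₄ Θ Θ₁ Θ₂ Θ₃ Θ₄ b K e' z)
    (A : Fin n → ℝ) :
    3 / 4 * (sg / R * (Φ₁ (M z) + Θ₁ (levG n sg R kap Gs (π z))) * ∑ i, A i ^ 2) +
      (Φ₂ (M z) + Θ₂ (levG n sg R kap Gs (π z))) * gA σ (lv n π sg R kap Gs) z A ^ 2 ≤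
    HH σ (ww π M f sg R kap Gs Φ Θ) z A := by
  have hzu : z ∈ (univ : Set E) := mem_univ z
  have h3 := (abs_le.1 (HH_le_flat P.p P.m P.hn P.h0 P.h1 P.hR P.hz P.d2 A)).1
  have h4 : 0 ≤ ∑ i, A i ^ 2 := Finset.sum_nonneg fun _ _ => sq_nonneg _
  have h6 := mul_le_mul_of_nonneg_right P.k1 h4
  have e1 : HH σ (ww π M f sg R kap Gs Φ Θ) z A =
      Φ₁ (M z) * (sg / R * ∑ i, A i ^ 2) +
      Φ₂ (M z) * gA σ (lv n π sg R kap Gs) z A ^ 2 + HH σ f z A +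
      (Θ₁ (levG n sg R kap Gs (π z)) * (sg / R * ∑ i, A i ^ 2) +
      Θ₂ (levG n sg R kap Gs (π z)) * gA σ (lv n π sg R kap Gs) z A ^ 2) := by
    rw [← Fl_ss P.p P.m P.hn P.h0 P.h1 P.hR P.hz A, ← Fl_HL P.p P.m P.hn P.h0 P.h1 P.hR P.hz]
    show HH σ (fun z => (Φ (M z) + f z) + Θ (levG n sg R kap Gs (π z))) z A = _
    rw [HH_eq_add P.ok P.sW P.L0.s0 hzu, HH_eq_add P.ok P.M0.s0 P.sf hzu,
      HH_comp P.ok P.M0 hzu, HH_comp P.ok P.L0 hzu, HH_oD P.MD, gA_oD P.MD]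
  rw [e1]
  linarith

/-- The gradient. -/
theorem Od.hD (P : Od σ π s θ M f ε R sg kap Gs Φ Φ₁ Φ₂ Φ₃ Φ₄ Θ Θ₁ Θ₂ Θ₃ Θ₄ b K e' z)
    (i : Fin n) : σ.D i (ww π M f sg R kap Gs Φ Θ) z =
      (Φ₁ (M z) + Θ₁ (levG n sg R kap Gs (π z))) * wR n sg R (π z) i + σ.D i f z := by
  have hzu : z ∈ (univ : Set E) := mem_univ z
  show σ.D i (fun z => (Φ (M z) + f z) + Θ (levG n sg R kap Gs (π z))) z = _
  rw [D_add σ isOpen_univ P.sW P.L0.s0 i hzu,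
    D_add σ isOpen_univ P.M0.s0 P.sf i hzu, Ch.D_comp isOpen_univ P.M0 i hzu,
    Ch.D_comp isOpen_univ P.L0 i hzu, P.MD, Fl_D P.p P.m P.hn P.h0 P.h1 P.hR P.hz]
  ring

theorem Od.m0 (P : Od σ π s θ M f ε R sg kap Gs Φ Φ₁ Φ₂ Φ₃ Φ₄ Θ Θ₁ Θ₂ Θ₃ Θ₄ b K e' z) :
    0 ≤ Φ₁ (M z) + Θ₁ (levG n sg R kap Gs (π z)) := add_nonneg P.a1 P.t1

theorem Od.gLW (P : Od σ π s θ M f ε R sg kap Gs Φ Φ₁ Φ₂ Φ₃ Φ₄ Θ Θ₁ Θ₂ Θ₃ Θ₄ b K e' z) :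
    15 / 16 * ((Φ₁ (M z) + Θ₁ (levG n sg R kap Gs (π z))) *
      σ.Γ (lv n π sg R kap Gs) (lv n π sg R kap Gs) z) ≤
      σ.Γ (lv n π sg R kap Gs) (ww π M f sg R kap Gs Φ Θ) z := by
  have q1 := P.q1
  have hD := P.hD
  have b0 := P.b0
  obtain ⟨p, m, ok, hn, h0, h1, hR, hx, hz, qz, M0, M1, M2, L0, L1, L2, MD, sf, d1, d2, La, LL, K1,
    e0, a1, a2, a3, a4, t1, t2, t3, t4, k1, k2, k3, k4⟩ := P
  have n1 : (1 : ℝ) ≤ n := by exact_mod_cast hn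
  set q := σ.Γ (lv n π sg R kap Gs) (lv n π sg R kap Gs) z with hq
  rw [Fl_G p m hn h0 h1 hR hz]
  have e1 : ∑ i, σ.D i (lv n π sg R kap Gs) z * σ.D i (ww π M f sg R kap Gs Φ Θ) z =
      (Φ₁ (M z) + Θ₁ (levG n sg R kap Gs (π z))) * q +
      ∑ i, wR n sg R (π z) i * σ.D i f z := by
    rw [hq, Fl_GL p m hn h0 h1 hR hz]
    unfold HY.sq
    rw [Finset.mul_sum, ← Finset.sum_add_distrib]
    refine Finset.sum_congr rfl fun i _ => ?_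
    rw [Fl_D p m hn h0 h1 hR hz, hD]; ring
  rw [e1]
  have e2 : ∑ i, wR n sg R (π z) i ^ 2 = q := by
    rw [hq, Fl_GL p m hn h0 h1 hR hz]; rfl
  have s2 : |∑ i, wR n sg R (π z) i * σ.D i f z| ≤ b * ∑ i, |wR n sg R (π z) i| := by
    rw [Finset.mul_sum]
    refine (Finset.abs_sum_le_sum_abs _ _).trans (Finset.sum_le_sum fun i _ => ?_)
    rw [abs_mul, mul_comm]
    exact mul_le_mul_of_nonneg_right (d1 i) (abs_nonneg _)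
  have a5 := a1_sq (wR n sg R (π z))
  rw [e2] at a5
  have a6 : 0 ≤ ∑ i, |wR n sg R (π z) i| := Finset.sum_nonneg fun _ _ => abs_nonneg _
  have a7 : ∑ i, |wR n sg R (π z) i| ≤ n * q := by
    have h3 : (1 : ℝ) ≤ n * q := by nlinarith
    refine abs_le_of_sq_le_sq' ?_ (by linarith) |>.2
    nlinarith
  have a8 : b * ∑ i, |wR n sg R (π z) i| ≤ b * (n * q) := mul_le_mul_of_nonneg_left a7 b0
  have a9 : b * (n * q) ≤ 1 / 16 * ((Φ₁ (M z) + Θ₁ (levG n sg R kap Gs (π z))) * q) := by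
    have := mul_le_mul_of_nonneg_right k2 (by linarith : 0 ≤ q)
    linarith
  have a10 := (abs_le.1 (s2.trans (a8.trans a9))).1
  linarith

theorem Od.own_h (P : Od σ π s θ M f ε R sg kap Gs Φ Φ₁ Φ₂ Φ₃ Φ₄ Θ Θ₁ Θ₂ Θ₃ Θ₄ b K e' z)
    (A : Fin n → ℝ) :
    1 / 100 * (sg / R) * (Φ₁ (M z) + Θ₁ (levG n sg R kap Gs (π z))) * ss σ A z ≤
      HH σ (ww π M f sg R kap Gs Φ Θ) z A := by
  have h3 := P.hH A
  have h4 : 0 ≤ ∑ i, A i ^ 2 := Finset.sum_nonneg fun _ _ => sq_nonneg _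
  have h5 := mul_nonneg (add_nonneg P.a2 P.t2) (sq_nonneg (gA σ (lv n π sg R kap Gs) z A))
  have h7 : 0 ≤ sg / R * (Φ₁ (M z) + Θ₁ (levG n sg R kap Gs (π z))) * ∑ i, A i ^ 2 :=
    mul_nonneg (mul_nonneg P.s0.le P.m0) h4
  rw [Fl_ss P.p P.m P.hn P.h0 P.h1 P.hR P.hz]
  linarith

theorem Od.own_o (P : Od σ π s θ M f ε R sg kap Gs Φ Φ₁ Φ₂ Φ₃ Φ₄ Θ Θ₁ Θ₂ Θ₃ Θ₄ b K e' z) :
    2 * |σ.Λ (σ.Λ (ww π M f sg R kap Gs Φ Θ)) z| ≤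
      1 / 10 ^ 6 * (sg / R * (Φ₁ (M z) + Θ₁ (levG n sg R kap Gs (π z)))) ^ 2 +
      2 * HH σ (ww π M f sg R kap Gs Φ Θ) z
        (fun i => σ.D i (ww π M f sg R kap Gs Φ Θ) z) := by
  have hzu : z ∈ (univ : Set E) := mem_univ z
  have q1 := P.q1
  have q2 := P.q2
  obtain ⟨b1, b2⟩ := P.b12
  have h3 := P.hH fun i => σ.D i (ww π M f sg R kap Gs Φ Θ) z
  have gLW := P.gLW
  rw [gA_DW] at h3
  have t0 := add_nonneg P.a2 P.t2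
  have m0 := P.m0
  have s0 := P.s0
  have e1 : ∀ w ∈ (univ : Set E), σ.Λ (ww π M f sg R kap Gs Φ Θ) w =
      σ.Λ (fun z => Φ (M z)) w + σ.Λ f w + σ.Λ (fun z => Θ (lv n π sg R kap Gs z)) w :=
    fun w hw => by
      show σ.Λ (fun z => (Φ (M z) + f z) + Θ (lv n π sg R kap Gs z)) w = _
      rw [L_add P.ok P.sW P.L0.s0 hw, L_add P.ok P.M0.s0 P.sf hw]
  have sM : Sm univ (σ.Λ fun z => Φ (M z)) := P.ok.sL P.M0.s0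
  have sF : Sm univ (σ.Λ f) := P.ok.sL P.sf
  have sT : Sm univ (σ.Λ fun z => Θ (lv n π sg R kap Gs z)) := P.ok.sL P.L0.s0
  have e2 : σ.Λ (σ.Λ (ww π M f sg R kap Gs Φ Θ)) z = σ.Λ (σ.Λ fun z => Φ (M z)) z +
      σ.Λ (σ.Λ f) z + σ.Λ (σ.Λ fun z => Θ (lv n π sg R kap Gs z)) z := by
    rw [L_congr P.ok e1 hzu]
    rw [L_add P.ok (sM.add sF) sT hzu, L_add P.ok sM sF hzu]
  rw [e2]
  have k3 := P.k3
  have k4 := P.k4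
  have K1 := P.K1
  have e0 := P.e0
  have LL := P.LL
  set q := σ.Γ (lv n π sg R kap Gs) (lv n π sg R kap Gs) z with hq
  set x := Φ₁ (M z) + Θ₁ (levG n sg R kap Gs (π z)) with hx
  set t := Φ₂ (M z) + Θ₂ (levG n sg R kap Gs (π z)) with ht
  have h4 : 0 ≤ ∑ i, σ.D i (ww π M f sg R kap Gs Φ Θ) z ^ 2 :=
    Finset.sum_nonneg fun _ _ => sq_nonneg _
  have h7 : 0 ≤ sg / R * x * ∑ i, σ.D i (ww π M f sg R kap Gs Φ Θ) z ^ 2 :=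
    mul_nonneg (mul_nonneg s0.le m0) h4
  have q0 : 0 ≤ q := by linarith
  have g1 : ((K + 3) * q) ^ 2 ≤
      σ.Γ (lv n π sg R kap Gs) (ww π M f sg R kap Gs Φ Θ) z ^ 2 := by
    refine pow_le_pow_left₀ (mul_nonneg (by linarith) q0) (le_trans ?_ gLW) 2
    have h8 := mul_le_mul_of_nonneg_right k3 q0
    have h9 : 0 ≤ x * q := mul_nonneg m0 q0
    linarith
  have g2 := mul_le_mul_of_nonneg_left g1 t0
  have g3 : Φ₂ (M z) * (K + 3) ^ 2 * q ^ 2 +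
      Θ₂ (levG n sg R kap Gs (π z)) * (K + 3) ^ 2 * q ^ 2 = t * ((K + 3) * q) ^ 2 := by
    rw [ht]; ring
  have q4 : q ^ 2 ≤ 4 := by nlinarith
  have g4 : 14 * e' * q ^ 2 ≤ 14 * e' * 4 := mul_le_mul_of_nonneg_left q4 (by linarith)
  have g5 := abs_add_le (σ.Λ (σ.Λ fun z => Φ (M z)) z + σ.Λ (σ.Λ f) z)
    (σ.Λ (σ.Λ fun z => Θ (lv n π sg R kap Gs z)) z)
  have g6 := abs_add_le (σ.Λ (σ.Λ fun z => Φ (M z)) z) (σ.Λ (σ.Λ f) z)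
  have b1' : |σ.Λ (σ.Λ fun z => Φ (M z)) z| ≤ Φ₂ (M z) * (K + 3) ^ 2 * q ^ 2 +
      7 * e' * q ^ 2 := by linarith
  have b2' : |σ.Λ (σ.Λ fun z => Θ (lv n π sg R kap Gs z)) z| ≤
      Θ₂ (levG n sg R kap Gs (π z)) * (K + 3) ^ 2 * q ^ 2 + 7 * e' * q ^ 2 := by linarith
  linarith

theorem Od.own_w (P : Od σ π s θ M f ε R sg kap Gs Φ Φ₁ Φ₂ Φ₃ Φ₄ Θ Θ₁ Θ₂ Θ₃ Θ₄ b K e' z) :
    1 / 100 * (sg / R) * (Φ₁ (M z) + Θ₁ (levG n sg R kap Gs (π z))) *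
      σ.F (ww π M f sg R kap Gs Φ Θ) z / 4 +
      (1 / 100 * (sg / R) * (Φ₁ (M z) + Θ₁ (levG n sg R kap Gs (π z)))) ^ 2 / 4 ≤
    1 / 100 * (sg / R) * (Φ₁ (M z) + Θ₁ (levG n sg R kap Gs (π z))) *
      σ.F (ww π M f sg R kap Gs Φ Θ) z / 2 +
      2 / 3 * (1 / 100 * (sg / R) * (Φ₁ (M z) + Θ₁ (levG n sg R kap Gs (π z))) *
        σ.Λ (ww π M f sg R kap Gs Φ Θ) z +
        σ.Γ (fun z => 1 / 100 * (sg / R) * (Φ₁ (M z) + Θ₁ (levG n sg R kap Gs (π z))))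
          (ww π M f sg R kap Gs Φ Θ) z) -
      3 * (1 / 10 ^ 6 * (sg / R * (Φ₁ (M z) + Θ₁ (levG n sg R kap Gs (π z)))) ^ 2) := by
  have hzu : z ∈ (univ : Set E) := mem_univ z
  have n1 : (1 : ℝ) ≤ n := by exact_mod_cast P.hn
  have q1 := P.q1
  have m0 := P.m0
  have s0 := P.s0
  have s1 := P.s1
  have b0 := P.b0
  have t0 := add_nonneg P.a2 P.t2
  obtain ⟨F1, F2⟩ := slot_F (θ := θ) (L := M) (kap := kap) (Gs := Gs) P.p P.m P.hn P.h0 P.h1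
    P.hR P.hz P.hD P.d1 m0 P.k2
  have f1 : σ.Λ (lv n π sg R kap Gs) z = n * (sg / R) := Fl_LL P.p P.m P.hn P.h0 P.h1 P.hR P.hz
  have e1 : σ.Λ (ww π M f sg R kap Gs Φ Θ) z =
      Φ₁ (M z) * (n * (sg / R)) + Φ₂ (M z) *
        σ.Γ (lv n π sg R kap Gs) (lv n π sg R kap Gs) z + σ.Λ f z +
      (Θ₁ (levG n sg R kap Gs (π z)) * (n * (sg / R)) + Θ₂ (levG n sg R kap Gs (π z)) *
        σ.Γ (lv n π sg R kap Gs) (lv n π sg R kap Gs) z) := by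
    show σ.Λ (fun z => (Φ (M z) + f z) + Θ (lv n π sg R kap Gs z)) z = _
    rw [L_add P.ok P.sW P.L0.s0 hzu, L_add P.ok P.M0.s0 P.sf hzu, Ch.L_comp P.ok P.M0 hzu,
      Ch.L_comp P.ok P.L0 hzu, L_oD P.MD, G_oD P.MD, G_oD' P.MD, f1]
  have l1 : -b ≤ σ.Λ (ww π M f sg R kap Gs Φ Θ) z := by
    rw [e1]
    have c1 := (abs_le.1 P.La).1
    have c2 : 0 ≤ Φ₁ (M z) * (n * (sg / R)) := mul_nonneg P.a1 (by positivity)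
    have c3 : 0 ≤ Θ₁ (levG n sg R kap Gs (π z)) * (n * (sg / R)) :=
      mul_nonneg P.t1 (by positivity)
    have c4 := mul_nonneg P.a2 (by linarith : 0 ≤ σ.Γ (lv n π sg R kap Gs) (lv n π sg R kap Gs) z)
    have c5 := mul_nonneg P.t2 (by linarith : 0 ≤ σ.Γ (lv n π sg R kap Gs) (lv n π sg R kap Gs) z)
    linarith
  have gl : 0 ≤ σ.Γ (fun z => 1 / 100 * (sg / R) * (Φ₁ (M z) +
      Θ₁ (levG n sg R kap Gs (π z)))) (ww π M f sg R kap Gs Φ Θ) z := by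
    have c1 : ∀ i, σ.D i (fun z => 1 / 100 * (sg / R) * (Φ₁ (M z) +
        Θ₁ (levG n sg R kap Gs (π z)))) z =
        1 / 100 * (sg / R) * (Φ₂ (M z) + Θ₂ (levG n sg R kap Gs (π z))) *
          σ.D i (lv n π sg R kap Gs) z := by
      intro i
      rw [D_cmul σ isOpen_univ _ (P.M1.s0.add P.L1.s0) i hzu,
        D_add σ isOpen_univ P.M1.s0 P.L1.s0 i hzu, Ch.D_comp isOpen_univ P.M1 i hzu,
        Ch.D_comp isOpen_univ P.L1 i hzu, P.MD]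
      ring
    have c2 : σ.Γ (fun z => 1 / 100 * (sg / R) * (Φ₁ (M z) +
        Θ₁ (levG n sg R kap Gs (π z)))) (ww π M f sg R kap Gs Φ Θ) z =
        1 / 100 * (sg / R) * (Φ₂ (M z) + Θ₂ (levG n sg R kap Gs (π z))) *
          σ.Γ (lv n π sg R kap Gs) (ww π M f sg R kap Gs Φ Θ) z := by
      unfold Sl.Γ
      simp only [c1, Finset.mul_sum]
      exact Finset.sum_congr rfl fun i _ => Finset.sum_congr rfl fun j _ => by ring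
    rw [c2]
    exact mul_nonneg (mul_nonneg (by positivity) t0) F2
  have k2 := P.k2
  have k3 := P.k3
  have K1 := P.K1
  set x := Φ₁ (M z) + Θ₁ (levG n sg R kap Gs (π z)) with hxx
  set F := σ.F (ww π M f sg R kap Gs Φ Θ) z with hF
  set La := σ.Λ (ww π M f sg R kap Gs Φ Θ) z with hLa
  set c := sg / R with hc
  have x12 : 12 ≤ x := by linarith
  have c0 : 0 ≤ 1 / 100 * c * x := by positivity
  have c1 := mul_le_mul_of_nonneg_left F1 c0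
  have c2 := mul_le_mul_of_nonneg_left l1 c0
  have b16 : b ≤ x / 16 := by
    have : 16 * b ≤ 16 * n * b := by nlinarith
    linarith
  have c3 := mul_le_mul_of_nonneg_left b16 c0
  have y0 : 0 ≤ c * x ^ 2 := by positivity
  have y1 : c * x ^ 2 * 12 ≤ c * x ^ 2 * x := mul_le_mul_of_nonneg_left x12 y0
  have y2 : (c * x) ^ 2 ≤ 1 / 2 * (c * x ^ 2) := by
    have e3 : (c * x) ^ 2 = c * (c * x ^ 2) := by ring
    rw [e3]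
    exact mul_le_mul_of_nonneg_right s1 y0
  have e4 : 1 / 100 * c * x * (7 / 8 * x ^ 2) = 7 / 800 * (c * x ^ 2 * x) := by ring
  have e5 : 1 / 100 * c * x * (x / 16) = 1 / 1600 * (c * x ^ 2) := by ring
  have e6 : (1 / 100 * c * x) ^ 2 = 1 / 10000 * (c * x) ^ 2 := by ring
  rw [e6]
  rw [e4] at c1
  rw [e5] at c3
  linarith

/-- **The facts of one slot.** -/
theorem Od.own (P : Od σ π s θ M f ε R sg kap Gs Φ Φ₁ Φ₂ Φ₃ Φ₄ Θ Θ₁ Θ₂ Θ₃ Θ₄ b K e' z) :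
    Own σ (fun z => Φ (M z) + f z + Θ (levG n sg R kap Gs (π z)))
      (fun z => 1 / 100 * (sg / R) * (Φ₁ (M z) + Θ₁ (levG n sg R kap Gs (π z))))
      (1 / 10 ^ 6 * (sg / R * (Φ₁ (M z) + Θ₁ (levG n sg R kap Gs (π z)))) ^ 2) z :=
  ⟨P.own_h, P.own_o, P.own_w⟩

end Vale.Agent.P088.R2.H808.INF
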