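import Vale.Agent.P088.R2.H808.INF.O1a
import Vale.Agent.P088.R2.H380.INF.Sbp
import Vale.Agent.P088.R2.H493.INF.RowC
import Vale.Agent.P088.R2.H31.EP.Thx
import Vale.Agent.P088.R2.H238.C.Geo
import Vale.Agent.P088.R2.H768.A.WD

/-!
# P088, stage 3, leaf iH: the row `RowO1`
-/

open MeasureTheory Set Filter
open scoped ContDiff Topology Matrix

noncomputable section

namespace Vale.Agent.P088.R2.H808.INF

open Vale.Agent.P088.R2.H961.GW Vale.Agent.P088.R2.H960.W Vale.Agent.P088.R2.H644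
open Vale.Agent.P088.R2.H551.E Vale.Agent.P088.LR Vale.Agent.P088.HY Vale.Agent.P088.R2.H475
open Vale.Agent.P088.R2.H168.INF Vale.Agent.P088.R2.H31.EP Vale.Agent.P088.R2.H380.INF
open Vale.Agent.P088.R2.H269.INF
open Vale.Agent.P088.R2.H404.INF (InfC evInf lvG l₀_eq l₀_nonneg l₀_le)
open Vale.Agent.P088.R2.H464.Cu (mid)

variable {n : ℕ} {q : Cst} {d : Pk n} {z : VV n}

/-! ## The constants -/

/-- The constant of `sb_pt`. -/
def cB (n : ℕ) : ℝ := (sb_pt n).choose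

theorem cB0 (n : ℕ) : 0 ≤ cB n := (sb_pt n).choose_spec.1

/-- The constant of `Θ`. -/
def tK : ℝ := thC 1 + thC 2 + thC 3 + thC 4 + 1

theorem tK1 : 1 ≤ tK := by
  have := thC_nonneg 1
  have := thC_nonneg 2
  have := thC_nonneg 3
  have := thC_nonneg 4
  unfold tK
  linarith

/-- The log-Lipschitz constant. -/
def kK (q : Cst) : ℝ := 1 + |q.phL.1 1| + |q.phL.1 2| + tK * q.L₄

/-- The large constant. -/
def kA (n : ℕ) (q : Cst) : ℝ := 10 ^ 6 * (200 + 64 * (n + 1) * (cB n + 1) + 3 * (kK q + 3))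

/-- The thresholds. -/
structure Oc (n : ℕ) (q : Cst) : Prop where
  ic : InfC q
  th : H238.C.Th q
  te : H238.C.Te n q
  st : ∀ d : Pk n, PkOk q d → ∀ z : VV n,
    d.l z.1 ≤ d.l₀ q + 32 / 10 * q.R → d.l z.2 ≤ d.l₀ q + 32 / 10 * q.R →
    ∀ j, 1 ≤ j → j ≤ 4 → ‖iteratedFDeriv ℝ j (st2 q d) z‖ ≤ Real.exp (8 * (q.R / q.σ))
  nε : n * q.ε ≤ 1 / 2
  nx : n * (q.σ / q.R) ≤ 1 / 2
  R20 : 1000 ≤ q.R
  L4 : 1 ≤ q.L₄
  ex : tK * (q.L₄ ^ 4 * q.tnL + q.tny) ≤ 1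
  big : kA n q * Real.exp (9 * (q.R / q.σ)) ≤ Real.exp (10 * q.C₃ / q.σ * (q.R / 20 - 1))

/-- The function `f`. -/
def fS (q : Cst) (d : Pk n) (z : VV n) : ℝ := W0 q d z - d.Φ (d.l z.1 + d.l z.2)

/-! ## The slope -/

theorem kK1 (O : Oc n q) : 1 ≤ kK q := by
  have := abs_nonneg (q.phL.1 1)
  have := abs_nonneg (q.phL.1 2)
  have := tK1
  have := O.L4
  have : 0 ≤ tK * q.L₄ := by positivity
  unfold kK
  linarith

theorem N_low (O : Oc n q) (h : PkOk q d) {u : ℝ} (hu : 2 * d.l₀ q + 91 / 20 * q.R ≤ u) :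
    Real.exp (10 * q.C₃ / q.σ * (q.R / 20 - 1)) ≤ deriv d.Φ u := by
  have hmono : Monotone (deriv d.Φ) := by
    refine monotone_of_deriv_nonneg ?_ fun t => (h.top.k0 t).le
    exact ((contDiff_infty_iff_deriv.1 h.ok.Φs).2).differentiable (by norm_num)
  refine le_trans ?_ (hmono hu)
  have hR := O.R20
  have ea : d.uta q = 2 * d.l₀ q + 45 / 10 * q.R := rfl
  have eb : d.utb q = 2 * d.l₀ q + 47 / 10 * q.R := rfl
  rw [h.top.y3 _ (by rw [ea]; linarith) (by rw [eb]; linarith)]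
  have h1 : 1 ≤ deriv d.Φ (d.uta q + 1) := by
    have h2 := h.top.l1 (d.uta q + 1)
    have h3 := h.ph.isΦ.n1 (d.uta q + 1)
    have h4 := O.th.M1
    linarith
  have e : q.L * (2 * d.l₀ q + 91 / 20 * q.R - (d.uta q + 1)) =
      10 * q.C₃ / q.σ * (q.R / 20 - 1) := by
    rw [ea]
    unfold Cst.L
    ring
  rw [e]
  exact le_mul_of_one_le_left (Real.exp_pos _).le h1

/-! ## The weight near the point -/

theorem W0_sm (O : Oc n q) (h : PkOk q d) : ContDiff ℝ ∞ (W0 q d) :=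
  WW_smooth h.ok h.lev.sm (h.gi_sm O.nε)

theorem fS_sm (O : Oc n q) (h : PkOk q d) : ContDiff ℝ ∞ (fS q d) :=
  (W0_sm O h).sub (h.ok.Φs.comp ((h.lev.sm.comp contDiff_fst).add (h.lev.sm.comp contDiff_snd)))

theorem mu_off (O : Oc n q) (h : PkOk q d) (h1 : d.l z.1 ≤ d.l₀ q + 31 / 10 * q.R)
    (h2 : d.l₀ q + 140 / 100 * q.R ≤ d.l z.1) :
    ∀ᶠ w in 𝓝 z, d.χ (d.r2 w) * d.μc q (d.l (mid w)) = 0 := by
  have I := O.ic
  have hR := I.R0
  have hL := lvG I h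
  have cr : Continuous d.r2 :=
    (H768.A.sm_r2 h hR O.te.ε1 O.nε).continuous
  by_cases h5 : d.r2 z < 5
  · have k1 := H238.C.r2_ge h O.th O.te z
    have hQ : √(HY.sq (z.1 - z.2)) ≤ 3 := by
      refine Real.sqrt_le_iff.2 ⟨by norm_num, ?_⟩
      linarith
    have mx : z.1 - mid z = (1 / 2 : ℝ) • (z.1 - z.2) := by
      funext i
      simp only [mid, Pi.sub_apply, Pi.smul_apply, Pi.add_apply, smul_eq_mul]
      ring
    have dm : √(HY.sq (z.1 - mid z)) ≤ 2 := by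
      rw [mx, H475.en_smul, abs_of_pos (by norm_num)]
      linarith
    have dm' : √(HY.sq (mid z - z.1)) ≤ 2 := by
      refine le_of_eq_of_le ?_ dm
      congr 1
      unfold HY.sq
      refine Finset.sum_congr rfl fun i _ => ?_
      simp only [Pi.sub_apply]
      ring
    have wx : √(HY.sq (wv n q.σ (q.R⁻¹ • z.1))) ≤ 1 + q.σ * (31 / 10) :=
      hL.g.t_le I.σ0 (by norm_num) ((hL.l12 _).2 h1)
    have wm : √(HY.sq (wv n q.σ (q.R⁻¹ • mid z))) ≤ 101 / 100 := by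
      have h7 := H475.en_wR_le (n := n) I.σ0 hR (mid z) z.1
      have h8 : q.σ / q.R * √(HY.sq (mid z - z.1)) ≤ 1 / 1000 := by
        have h10 : q.σ / q.R * √(HY.sq (mid z - z.1)) ≤ q.σ / q.R * 2 :=
          mul_le_mul_of_nonneg_left dm' (div_pos I.σ0 hR).le
        have h11 : q.σ / q.R ≤ q.σ := div_le_self I.σ0.le I.R1
        have := I.σ1
        linarith
      have h9 := I.σ1
      unfold wR at h7
      linarith
    have lip : |d.l z.1 - d.l (mid z)| ≤ 3 := by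
      have h9 := I.σ1
      have h7 := hL.g.lip (q.R⁻¹ • z.1) (q.R⁻¹ • mid z) (by linarith) wm
      rw [H404.INF.en_div hR] at h7
      rw [hL.eq z.1, hL.eq (mid z)]
      have e : d.l₀ q + q.R * H475.gg n q.σ (q.R⁻¹ • z.1) -
          (d.l₀ q + q.R * H475.gg n q.σ (q.R⁻¹ • mid z)) =
          q.R * (H475.gg n q.σ (q.R⁻¹ • z.1) - H475.gg n q.σ (q.R⁻¹ • mid z)) := by ring
      rw [e, abs_mul, abs_of_pos hR]
      refine (mul_le_mul_of_nonneg_left h7 hR.le).trans ?_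
      have e2 : q.R * (101 / 100 * (√(HY.sq (z.1 - mid z)) / q.R)) =
          101 / 100 * √(HY.sq (z.1 - mid z)) := by
        field_simp
      rw [e2]
      linarith
    have h8 := (abs_le.1 lip).2
    have hR2 := O.R20
    have lm : d.l₀ q + q.R < d.l (mid z) := by linarith
    have cl : Continuous fun w : VV n => d.l (mid w) :=
      h.lev.sm.continuous.comp H464.Cu.contDiff_mid.continuous
    filter_upwards [cl.continuousAt.eventually (lt_mem_nhds lm)] with w hw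
    rw [Pk.μc_zero d q hR (le_of_lt hw), mul_zero]
  · have h6 : 4 < d.r2 z := by linarith [not_lt.1 h5]
    filter_upwards [cr.continuousAt.eventually (lt_mem_nhds h6)] with w hw
    rw [h.χ0 _ (le_of_lt hw), zero_mul]

theorem fS_st (O : Oc n q) (h : PkOk q d) (h1 : d.l z.1 ≤ d.l₀ q + 31 / 10 * q.R)
    (h2 : d.l₀ q + 140 / 100 * q.R ≤ d.l z.1) : fS q d =ᶠ[𝓝 z] st2 q d := by
  filter_upwards [mu_off O h h1 h2] with w hw
  have eu : d.u q w = d.l w.1 + d.l w.2 := by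
    have : d.u q w = d.l w.1 + d.l w.2 + 2 * (d.χ (d.r2 w) * d.μc q (d.l (mid w))) := rfl
    rw [this, hw]
    ring
  have h3 : W0 q d w = d.Φ (d.u q w) + st (d.F q) (d.u q w) (d.r2 w) := by
    unfold W0 WW Pk.u Pk.r2
    simp [Pk.F]
  unfold fS st2
  rw [h3, eu]
  ring

/-- The bound of the derivatives of `f`. -/
theorem fS_bd (O : Oc n q) (h : PkOk q d) (h1 : d.l z.1 ≤ d.l₀ q + 31 / 10 * q.R)
    (h2 : d.l₀ q + 140 / 100 * q.R ≤ d.l z.1) (h3 : d.l z.2 ≤ d.l₀ q + 31 / 10 * q.R)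
    {j : ℕ} (j1 : 1 ≤ j) (j4 : j ≤ 4) :
    ‖iteratedFDeriv ℝ j (fS q d) z‖ ≤ Real.exp (8 * (q.R / q.σ)) := by
  have hR := O.ic.R0
  rw [((fS_st O h h1 h2).iteratedFDeriv ℝ j).eq_of_nhds]
  exact O.st d h z (by linarith) (by linarith) j j1 j4

/-- The hypotheses of `sb_pt`. -/
theorem bs1 (h : PkOk q d) (hR : 1 ≤ q.R) (he : q.ε ≤ 1) {f : VV n → ℝ}
    (hf : ContDiff ℝ ∞ f) : Bs q.R d.s₁ d.s₂ f := by
  have key : ∀ s : MF n, (∀ i j, ∀ m ≤ 12, ∀ x, ‖iteratedFDeriv ℝ m (fun x => s x i j -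
      (1 : Matrix (Fin n) (Fin n) ℝ) i j) x‖ ≤ q.ε * q.R⁻¹ ^ m) → ∀ i j, ∀ m ≤ 3, ∀ x,
      ‖iteratedFDeriv ℝ m (fun x => s x i j) x‖ ≤ 2 * q.R⁻¹ ^ m := by
    intro s hs i j m hm x
    have h1 := hs i j m (by omega) x
    rcases m with _ | m
    · rw [norm_iteratedFDeriv_zero, pow_zero, mul_one, Real.norm_eq_abs] at h1 ⊢
      have h2 : |(1 : Matrix (Fin n) (Fin n) ℝ) i j| ≤ 1 := by
        rw [Matrix.one_apply]; split_ifs <;> simp
      have h3 := abs_sub_abs_le_abs_sub (s x i j) ((1 : Matrix (Fin n) (Fin n) ℝ) i j)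
      linarith
    · have e : (fderiv ℝ fun x => s x i j - (1 : Matrix (Fin n) (Fin n) ℝ) i j) =
          fderiv ℝ fun x => s x i j := by
        funext x
        exact fderiv_sub_const _
      rw [← norm_iteratedFDeriv_fderiv, e, norm_iteratedFDeriv_fderiv] at h1
      refine h1.trans (mul_le_mul_of_nonneg_right (by linarith) (by positivity))
  refine ⟨hR, h.rg.sm₁, h.rg.sm₂, fun x i j => ((h.rg.sy₁ x).apply i j).symm,
    fun x i j => ((h.rg.sy₂ x).apply i j).symm, key _ h.rg.cl₁, key _ h.rg.cl₂, hf⟩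

/-- The size of `f` in the slots. -/
def bF (n : ℕ) (q : Cst) : ℝ := cB n * (4 * Real.exp (8 * (q.R / q.σ)))

theorem sF (O : Oc n q) (h : PkOk q d) (h1 : d.l z.1 ≤ d.l₀ q + 31 / 10 * q.R)
    (h2 : d.l₀ q + 140 / 100 * q.R ≤ d.l z.1) (h3 : d.l z.2 ≤ d.l₀ q + 31 / 10 * q.R) :
    Sb4 d.sx d.sy (fS q d) (cB n) (fun j => gm q.R (fS q d) j z) z ∧
    ∀ j ≤ 3, cB n * gm q.R (fS q d) j z ≤ bF n q := by
  refine ⟨((sb_pt n).choose_spec.2 q.R d.s₁ d.s₂ (fS q d)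
    (bs1 h O.ic.R1 O.te.ε1 (fS_sm O h)) z).1, fun j hj => ?_⟩
  have h4 := gm_le O.ic.R1 (f := fS q d) (z := z) (k := 3) (Real.exp_pos _).le
    (fun i i1 i2 => fS_bd O h h1 h2 h3 i1 i2) hj
  refine mul_le_mul_of_nonneg_left (h4.trans ?_) (cB0 n)
  refine mul_le_mul_of_nonneg_right ?_ (Real.exp_pos _).le
  have : (j : ℝ) ≤ 3 := by exact_mod_cast hj
  linarith

end Vale.Agent.P088.R2.H808.INF
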